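import Vale.Agent.P092.H200.Two

/-!
P092 (helper17): the symplectic groups `Sp_2m(ℤ)`: commuting subgroups without invariant mean in
finite-index subgroups, and infinite conjugacy classes.
-/

namespace Vale.Agent.P092.H17

open Matrix Vale.Agent.P092.H200

/-- `Sp_2m(ℤ)`: the integral `2m × 2m` matrices `A` with `A J Aᵀ = J`. -/
abbrev SpZ (m : ℕ) : Type := Matrix.symplecticGroup (Fin m) ℤ

variable {m : ℕ}

/-- the matrix with the blocks `f i` in the coordinates `i`, `m + i`. -/
def blk (f : Fin m → SpecialLinearGroup (Fin 2) ℤ) : Matrix (Fin m ⊕ Fin m) (Fin m ⊕ Fin m) ℤ :=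
  fromBlocks (diagonal fun i => f i 0 0) (diagonal fun i => f i 0 1)
    (diagonal fun i => f i 1 0) (diagonal fun i => f i 1 1)

theorem blk_mem (f : Fin m → SpecialLinearGroup (Fin 2) ℤ) :
    blk f ∈ Matrix.symplecticGroup (Fin m) ℤ := by
  rw [SymplecticGroup.mem_iff, blk, J, fromBlocks_transpose, fromBlocks_multiply,
    fromBlocks_multiply]
  have h : ∀ i, f i 0 0 * f i 1 1 - f i 0 1 * f i 1 0 = 1 := fun i => by
    have := (f i).det_coe
    rwa [det_fin_two] at this
  simp only [diagonal_transpose, Matrix.mul_zero, Matrix.mul_neg, Matrix.mul_one, zero_add,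
    add_zero, Matrix.neg_mul, diagonal_mul_diagonal]
  congr 1
  · ext i j
    by_cases hij : i = j
    · subst hij
      simp
      ring
    · simp [hij]
  · ext i j
    by_cases hij : i = j
    · subst hij
      have := h i
      simp
      linarith
    · simp [hij]
  · ext i j
    by_cases hij : i = j
    · subst hij
      have := h i
      simp
      linarith
    · simp [hij]
  · ext i j
    by_cases hij : i = j
    · subst hij
      simp
      ring
    · simp [hij]

theorem blk_mul (f g : Fin m → SpecialLinearGroup (Fin 2) ℤ) : blk (f * g) = blk f * blk g := by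
  rw [blk, blk, blk, fromBlocks_multiply]
  simp only [diagonal_mul_diagonal, diagonal_add]
  congr 1 <;>
  · congr 1
    ext i
    simp [Matrix.mul_apply, Fin.sum_univ_two]

theorem blk_one : blk (1 : Fin m → SpecialLinearGroup (Fin 2) ℤ) = 1 := by
  rw [blk, ← fromBlocks_one]
  congr 1 <;>
  · ext i j
    by_cases hij : i = j
    · subst hij; simp
    · simp [hij]

theorem blk_injective : Function.Injective (blk (m := m)) := by
  intro f g h
  funext i
  apply Subtype.ext
  ext a b
  have h1 : ∀ x y, blk f x y = blk g x y := fun x y => by rw [h]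
  have e00 := h1 (Sum.inl i) (Sum.inl i)
  have e01 := h1 (Sum.inl i) (Sum.inr i)
  have e10 := h1 (Sum.inr i) (Sum.inl i)
  have e11 := h1 (Sum.inr i) (Sum.inr i)
  simp only [blk, fromBlocks_apply₁₁, fromBlocks_apply₁₂, fromBlocks_apply₂₁,
    fromBlocks_apply₂₂, diagonal_apply_eq] at e00 e01 e10 e11
  fin_cases a <;> fin_cases b <;> assumption

/-- The product `SL_2(ℤ)^m` inside `Sp_2m(ℤ)`. -/
def blkHom (m : ℕ) : (Fin m → SpecialLinearGroup (Fin 2) ℤ) →* SpZ m where
  toFun f := ⟨blk f, blk_mem f⟩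
  map_one' := Subtype.ext blk_one
  map_mul' f g := Subtype.ext (blk_mul f g)

theorem blkHom_injective : Function.Injective (blkHom m) := fun _ _ h =>
  blk_injective (congrArg Subtype.val h)

/-- The `i`-th copy of `SL_2(ℤ)` in `Sp_2m(ℤ)`. -/
def slHom (i : Fin m) : SpecialLinearGroup (Fin 2) ℤ →* SpZ m :=
  (blkHom m).comp (MonoidHom.mulSingle (fun _ : Fin m => SpecialLinearGroup (Fin 2) ℤ) i)

theorem slHom_injective (i : Fin m) : Function.Injective (slHom i) := by
  intro a b h
  have h1 := blkHom_injective h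
  exact Pi.mulSingle_injective (M := fun _ : Fin m => SpecialLinearGroup (Fin 2) ℤ) i h1

theorem slHom_comm {i j : Fin m} (h : i ≠ j) (a b : SpecialLinearGroup (Fin 2) ℤ) :
    slHom i a * slHom j b = slHom j b * slHom i a := by
  rw [slHom, slHom, MonoidHom.comp_apply, MonoidHom.comp_apply, ← map_mul, ← map_mul]
  congr 1
  exact (Pi.mulSingle_commute (f := fun _ : Fin m => SpecialLinearGroup (Fin 2) ℤ) h a b).eq

/-- **Finite-index subgroups of `Sp_2m(ℤ)` contain `m` commuting subgroups without invariant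
mean.** -/
theorem exists_commuting (Λ : Subgroup (SpZ m)) [Λ.FiniteIndex] :
    ∃ K : Fin m → Subgroup Λ, (∀ i, NoMean (K i)) ∧
      ∀ i j, i ≠ j → ∀ a ∈ K i, ∀ b ∈ K j, a * b = b * a := by
  obtain ⟨q, hq⟩ : ∃ q : ℕ, q = Λ.normalCore.index := ⟨_, rfl⟩
  have hq0 : (q : ℤ) ≠ 0 := by
    have : Λ.normalCore.FiniteIndex := inferInstance
    rw [hq]
    exact_mod_cast this.index_ne_zero
  have hmem : ∀ (i : Fin m) (v : SpecialLinearGroup (Fin 2) ℤ), v ∈ Elq 2 q → slHom i v ∈ Λ := by
    intro i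
    have h1 : Elq 2 q ≤ Λ.comap (slHom i) := by
      refine (Subgroup.closure_le _).mpr ?_
      rintro g ⟨a, b, h, c, rfl⟩
      have h2 : slHom i (el a b h c) ^ q ∈ Λ.normalCore := by
        rw [hq]
        exact Subgroup.pow_index_mem _ _
      rw [← map_pow, el_pow] at h2
      change slHom i (el a b h ((q : ℤ) * c)) ∈ Λ
      exact Subgroup.normalCore_le Λ h2
    exact fun v hv => h1 hv
  have hno : NoMean (Elq 2 (q : ℤ)) :=
    no_mean_block_mul 0 1 (by decide) q hq0 _ (fun c => el_mem_Elq _ _ _ _ _)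
      (fun c => el_mem_Elq _ _ _ _ _)
  refine ⟨fun i => (slHom i).range.subgroupOf Λ, fun i => ?_, ?_⟩
  · let φ : Elq 2 (q : ℤ) →* Λ :=
      { toFun := fun v => ⟨slHom i v, hmem i v v.2⟩
        map_one' := Subtype.ext (map_one _)
        map_mul' := fun a b => Subtype.ext (map_mul (slHom i) _ _) }
    refine no_mean_of_inj φ ?_ (no_mean_top _ hno) _ ?_
    · intro a b h
      exact Subtype.ext (slHom_injective i (congrArg Subtype.val h))
    · intro v
      exact ⟨v, rfl⟩
  · rintro i j hij a ⟨a', ha'⟩ b ⟨b', hb'⟩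
    apply Subtype.ext
    change (a : SpZ m) * (b : SpZ m) = (b : SpZ m) * (a : SpZ m)
    change slHom i a' = (a : SpZ m) at ha'
    change slHom j b' = (b : SpZ m) at hb'
    rw [← ha', ← hb', slHom_comm hij]

/-! ### Infinite conjugacy classes -/

/-- the unipotent elements `1 + S` in the upper right block, `S` symmetric. -/
theorem upp_mem {S : Matrix (Fin m) (Fin m) ℤ} (hS : Sᵀ = S) :
    fromBlocks 1 S 0 1 ∈ Matrix.symplecticGroup (Fin m) ℤ := by
  rw [SymplecticGroup.mem_iff, J, fromBlocks_transpose, fromBlocks_multiply, fromBlocks_multiply]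
  simp [hS]

theorem low_mem {S : Matrix (Fin m) (Fin m) ℤ} (hS : Sᵀ = S) :
    fromBlocks 1 0 S 1 ∈ Matrix.symplecticGroup (Fin m) ℤ := by
  rw [SymplecticGroup.mem_iff, J, fromBlocks_transpose, fromBlocks_multiply, fromBlocks_multiply]
  simp [hS]

def upp (S : Matrix (Fin m) (Fin m) ℤ) (hS : Sᵀ = S) : SpZ m := ⟨_, upp_mem hS⟩

def low (S : Matrix (Fin m) (Fin m) ℤ) (hS : Sᵀ = S) : SpZ m := ⟨_, low_mem hS⟩

theorem upp_pow (S : Matrix (Fin m) (Fin m) ℤ) (hS : Sᵀ = S) (k : ℕ) :
    ((upp S hS ^ k : SpZ m) : Matrix (Fin m ⊕ Fin m) (Fin m ⊕ Fin m) ℤ) =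
      fromBlocks 1 ((k : ℤ) • S) 0 1 := by
  induction k with
  | zero =>
    rw [pow_zero]
    simp
  | succ k ih =>
    rw [pow_succ]
    change ((upp S hS ^ k : SpZ m) : Matrix (Fin m ⊕ Fin m) (Fin m ⊕ Fin m) ℤ) *
      fromBlocks 1 S 0 1 = _
    rw [ih, fromBlocks_multiply]
    simp [add_smul, add_comm]

theorem low_pow (S : Matrix (Fin m) (Fin m) ℤ) (hS : Sᵀ = S) (k : ℕ) :
    ((low S hS ^ k : SpZ m) : Matrix (Fin m ⊕ Fin m) (Fin m ⊕ Fin m) ℤ) =
      fromBlocks 1 0 ((k : ℤ) • S) 1 := by
  induction k with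
  | zero =>
    rw [pow_zero]
    simp
  | succ k ih =>
    rw [pow_succ]
    change ((low S hS ^ k : SpZ m) : Matrix (Fin m ⊕ Fin m) (Fin m ⊕ Fin m) ℤ) *
      fromBlocks 1 0 S 1 = _
    rw [ih, fromBlocks_multiply]
    simp [add_smul]

/-- an element of `Sp_2m(ℤ)` commuting with powers of all upper and lower unipotents is `±1`. -/
theorem eq_or_neg_of_comm {q : ℤ} (hq : q ≠ 0) (g : SpZ m)
    (h1 : ∀ S : Matrix (Fin m) (Fin m) ℤ, Sᵀ = S →
      (g : Matrix (Fin m ⊕ Fin m) (Fin m ⊕ Fin m) ℤ) * fromBlocks 1 (q • S) 0 1 =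
        fromBlocks 1 (q • S) 0 1 * (g : Matrix (Fin m ⊕ Fin m) (Fin m ⊕ Fin m) ℤ))
    (h2 : ∀ S : Matrix (Fin m) (Fin m) ℤ, Sᵀ = S →
      (g : Matrix (Fin m ⊕ Fin m) (Fin m ⊕ Fin m) ℤ) * fromBlocks 1 0 (q • S) 1 =
        fromBlocks 1 0 (q • S) 1 * (g : Matrix (Fin m ⊕ Fin m) (Fin m ⊕ Fin m) ℤ)) :
    (g : Matrix (Fin m ⊕ Fin m) (Fin m ⊕ Fin m) ℤ) = 1 ∨
      (g : Matrix (Fin m ⊕ Fin m) (Fin m ⊕ Fin m) ℤ) = -1 := by
  obtain ⟨A, B, C, D, hg⟩ : ∃ A B C D, (g : Matrix (Fin m ⊕ Fin m) (Fin m ⊕ Fin m) ℤ) =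
      fromBlocks A B C D := ⟨_, _, _, _, (fromBlocks_toBlocks _).symm⟩
  have hsm : ∀ X Y : Matrix (Fin m) (Fin m) ℤ, q • X = q • Y → X = Y := fun X Y h =>
    smul_right_injective _ hq h
  have hu : ∀ S : Matrix (Fin m) (Fin m) ℤ, Sᵀ = S → S * C = 0 ∧ A * S = S * D := by
    intro S hS
    have h := h1 S hS
    rw [hg, fromBlocks_multiply, fromBlocks_multiply, fromBlocks_inj] at h
    obtain ⟨e1, e2, -, -⟩ := h
    simp only [Matrix.mul_one, Matrix.mul_zero, add_zero, Matrix.one_mul, Matrix.mul_smul,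
      Matrix.smul_mul] at e1 e2
    constructor
    · apply hsm
      have := sub_eq_zero.mpr e1
      rw [smul_zero]
      have e3 : A - (A + q • (S * C)) = 0 := this
      have e4 : q • (S * C) = -(A - (A + q • (S * C))) := by abel
      rw [e4, e3, neg_zero]
    · apply hsm
      have e3 : q • (A * S) + B = B + q • (S * D) := e2
      rw [add_comm] at e3
      exact add_left_cancel e3
  have hl : ∀ S : Matrix (Fin m) (Fin m) ℤ, Sᵀ = S → B * S = 0 := by
    intro S hS
    have h := h2 S hS
    rw [hg, fromBlocks_multiply, fromBlocks_multiply, fromBlocks_inj] at h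
    obtain ⟨e1, -, -, -⟩ := h
    simp only [Matrix.mul_one, Matrix.zero_mul, add_zero, Matrix.one_mul, Matrix.mul_smul] at e1
    apply hsm
    rw [smul_zero]
    have e4 : q • (B * S) = (A + q • (B * S)) - A := by abel
    rw [e4, e1, sub_self]
  have hC : C = 0 := by
    have := (hu 1 transpose_one).1
    rwa [Matrix.one_mul] at this
  have hAD : A = D := by
    have := (hu 1 transpose_one).2
    rwa [Matrix.one_mul, Matrix.mul_one] at this
  have hB : B = 0 := by
    have := hl 1 transpose_one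
    rwa [Matrix.mul_one] at this
  subst hAD
  -- `A` commutes with all symmetric matrices, hence is scalar
  have hAc : ∀ S : Matrix (Fin m) (Fin m) ℤ, Sᵀ = S → A * S = S * A := fun S hS => (hu S hS).2
  have hd : ∀ i j, i ≠ j → A i j = 0 := by
    intro i j hij
    have h := hAc (diagonal (Pi.single j 1)) (diagonal_transpose _)
    have h' := congrFun (congrFun h i) j
    rw [mul_diagonal, diagonal_mul] at h'
    simpa [hij] using h'
  have hs : ∀ i j, A i i = A j j := by
    intro i j
    by_cases hij : i = j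
    · rw [hij]
    have h := hAc (single i j 1 + single j i 1) (by
      rw [transpose_add, transpose_single, transpose_single, add_comm])
    have h' := congrFun (congrFun h i) j
    rw [Matrix.mul_add, Matrix.add_mul, Matrix.add_apply, Matrix.add_apply] at h'
    simp [hij, Ne.symm hij] at h'
    exact h'
  have hsym := SymplecticGroup.mem_iff.mp g.2
  rw [hg, hC, hB, J, fromBlocks_transpose, fromBlocks_multiply, fromBlocks_multiply,
    fromBlocks_inj] at hsym
  obtain ⟨-, -, e3, -⟩ := hsym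
  simp only [Matrix.mul_one, Matrix.zero_mul, Matrix.mul_zero, zero_add, add_zero,
    transpose_zero] at e3
  have hsq : ∀ i, A i i * A i i = 1 := by
    intro i
    have h := congrFun (congrFun e3 i) i
    rw [Matrix.mul_apply, Finset.sum_eq_single i] at h
    · simpa using h
    · intro j _ hj
      rw [hd i j (Ne.symm hj), zero_mul]
    · simp
  by_cases hm : Nonempty (Fin m)
  · obtain ⟨i0⟩ := hm
    have h0 : A i0 i0 = 1 ∨ A i0 i0 = -1 := mul_self_eq_one_iff.mp (hsq i0)
    rcases h0 with h0 | h0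
    · left
      rw [hg, hC, hB, ← fromBlocks_one]
      have : A = 1 := by
        ext i j
        by_cases hij : i = j
        · subst hij; rw [hs i i0, h0]; simp
        · rw [hd i j hij]; simp [hij]
      rw [this]
    · right
      rw [hg, hC, hB, ← fromBlocks_one, fromBlocks_neg]
      have : A = -1 := by
        ext i j
        by_cases hij : i = j
        · subst hij; rw [hs i i0, h0]; simp
        · rw [hd i j hij]; simp [hij]
      rw [this]
      simp
  · left
    ext x
    rcases x with x | x <;> exact absurd ⟨x⟩ hm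

/-- **Finite-index subgroups of `Sp_2m(ℤ)` without `-1` have infinite conjugacy classes.** -/
theorem icc_of_finiteIndex (Γ : Subgroup (SpZ m)) [Γ.FiniteIndex]
    (hneg : ∀ g ∈ Γ, (g : Matrix (Fin m ⊕ Fin m) (Fin m ⊕ Fin m) ℤ) ≠ -1) (g : Γ) (hg : g ≠ 1) :
    Set.Infinite {y : Γ | ∃ h, y = h * g * h⁻¹} := by
  intro hfin
  apply hg
  -- the centralizer has finite index
  have hZ : (Subgroup.centralizer {g}).FiniteIndex := by
    have h1 : Finite (MulAction.orbit (ConjAct Γ) g) := by
      refine Set.Finite.subset hfin ?_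
      rintro y ⟨c, rfl⟩
      exact ⟨ConjAct.ofConjAct c, ConjAct.smul_def c g⟩
    have h2 : (MulAction.stabilizer (ConjAct Γ) g).FiniteIndex := by
      have h3 : Finite (ConjAct Γ ⧸ MulAction.stabilizer (ConjAct Γ) g) :=
        Finite.of_equiv _ (MulAction.orbitEquivQuotientStabilizer (ConjAct Γ) g)
      exact Subgroup.finiteIndex_of_finite_quotient
    rw [ConjAct.stabilizer_eq_centralizer] at h2
    exact h2
  have hZ' : ((Subgroup.centralizer {g}).map Γ.subtype).FiniteIndex := by
    constructor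
    rw [Subgroup.index_map_subtype]
    exact mul_ne_zero hZ.index_ne_zero Subgroup.FiniteIndex.index_ne_zero
  obtain ⟨N, hN⟩ : ∃ N, N = ((Subgroup.centralizer {g}).map Γ.subtype).normalCore := ⟨_, rfl⟩
  have hNf : N.FiniteIndex := by rw [hN]; infer_instance
  have hq : (N.index : ℤ) ≠ 0 := by exact_mod_cast hNf.index_ne_zero
  have hNor : N.Normal := by rw [hN]; infer_instance
  have hcomm : ∀ u : SpZ m, (g : SpZ m) * u ^ N.index = u ^ N.index * (g : SpZ m) := by
    intro u
    have h1 : u ^ N.index ∈ N := Subgroup.pow_index_mem _ _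
    rw [hN] at h1
    have h2 := Subgroup.normalCore_le _ h1
    rw [← hN] at h2
    obtain ⟨c, hc, hc'⟩ := h2
    have h3 : g * c = c * g := Subgroup.mem_centralizer_iff.mp hc g rfl
    rw [← hc']
    exact congrArg Subtype.val h3
  have h := eq_or_neg_of_comm hq (g : SpZ m) (fun S hS => by
      rw [← upp_pow S hS]
      exact congrArg Subtype.val (hcomm (upp S hS))) (fun S hS => by
      rw [← low_pow S hS]
      exact congrArg Subtype.val (hcomm (low S hS)))
  rcases h with h | h
  · exact Subtype.ext (Subtype.ext h)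
  · exact absurd h (hneg _ g.2)

end Vale.Agent.P092.H17
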