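import Vale.Agent.P092.H17.SpGeo
import Vale.Agent.P092.H17.SpGrp

/-!
P092 (helper17): the symplectic groups as matrix groups of size `n + n`, their gap classes.
-/

namespace Vale.Agent.P092.H17

open Matrix Vale.Agent.P092.H944

variable {n : ℕ}

/-- A real `2n × 2n` matrix with rows and columns indexed by `Fin (n + n)`. -/
def re2 (A : Matrix (Fin n ⊕ Fin n) (Fin n ⊕ Fin n) ℝ) : Matrix (Fin (n + n)) (Fin (n + n)) ℝ :=
  A.submatrix finSumFinEquiv.symm finSumFinEquiv.symm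

theorem re2_mul (A B : Matrix (Fin n ⊕ Fin n) (Fin n ⊕ Fin n) ℝ) :
    re2 (A * B) = re2 A * re2 B := by
  unfold re2
  rw [Matrix.submatrix_mul_equiv]

theorem re2_one : re2 (1 : Matrix (Fin n ⊕ Fin n) (Fin n ⊕ Fin n) ℝ) = 1 := by
  unfold re2
  exact Matrix.submatrix_one_equiv _

theorem re2_transpose (A : Matrix (Fin n ⊕ Fin n) (Fin n ⊕ Fin n) ℝ) :
    (re2 A)ᵀ = re2 Aᵀ := rfl

theorem re2_neg (A : Matrix (Fin n ⊕ Fin n) (Fin n ⊕ Fin n) ℝ) :
    re2 (-A) = - re2 A := rfl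

theorem re2_det (A : Matrix (Fin n ⊕ Fin n) (Fin n ⊕ Fin n) ℝ) : (re2 A).det = A.det :=
  Matrix.det_submatrix_equiv_self _ _

theorem re2_injective : Function.Injective (re2 (n := n)) := by
  intro A B h
  ext i j
  have := congrFun (congrFun h (finSumFinEquiv i)) (finSumFinEquiv j)
  simpa [re2] using this

/-- the standard form, an orthogonal matrix -/
def Jr (n : ℕ) : Matrix (Fin (n + n)) (Fin (n + n)) ℝ := re2 (Matrix.J (Fin n) ℝ)

theorem Jr_orth : (Jr n)ᵀ * Jr n = 1 := by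
  rw [Jr, re2_transpose, ← re2_mul, Matrix.J_transpose, Matrix.neg_mul, Matrix.J_squared, neg_neg,
    re2_one]

theorem Jr_orth' : Jr n * (Jr n)ᵀ = 1 := by
  rw [Jr, re2_transpose, ← re2_mul, Matrix.J_transpose, Matrix.mul_neg, Matrix.J_squared, neg_neg,
    re2_one]

/-- The class of the `j`-th gap. -/
def clSp (n : ℕ) (j : Fin (n + n - 1)) : Fin n :=
  ⟨min j.1 (n + n - 2 - j.1), by have := j.2; omega⟩

/-- **The gaps of a matrix which preserves the symplectic form are equal in each class.** -/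
theorem gap_eq_of_cl {g : Matrix (Fin (n + n)) (Fin (n + n)) ℝ} (hg : g.det ≠ 0)
    (h : g * Jr n * gᵀ = Jr n) {i j : Fin (n + n - 1)} (hij : clSp n i = clSp n j) :
    gap i g = gap j g := by
  have h1 : min i.1 (n + n - 2 - i.1) = min j.1 (n + n - 2 - j.1) := congrArg Fin.val hij
  have hi := i.2
  have hj := j.2
  rcases eq_or_ne i.1 j.1 with e | e
  · rw [e]
  · have e2 : j.1 = n + n - 2 - i.1 := by omega
    rw [e2]
    exact gap_rev hg Jr_orth Jr_orth' h (by omega)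

/-! ### The real symplectic group -/

/-- `Sp_2n(ℝ)` as a group of matrices of size `n + n`. -/
def spR (g : Matrix.symplecticGroup (Fin n) ℝ) : Matrix (Fin (n + n)) (Fin (n + n)) ℝ :=
  re2 (g : Matrix (Fin n ⊕ Fin n) (Fin n ⊕ Fin n) ℝ)

theorem spR_form (g : Matrix.symplecticGroup (Fin n) ℝ) :
    spR g * Jr n * (spR g)ᵀ = Jr n := by
  rw [spR, Jr, re2_transpose, ← re2_mul, ← re2_mul]
  congr 1
  exact SymplecticGroup.mem_iff.mp g.2

theorem spR_det (g : Matrix.symplecticGroup (Fin n) ℝ) : (spR g).det = 1 := by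
  rw [spR, re2_det]
  exact SymplecticGroup.det_eq_one g.2

/-- `Sp_2n(ℝ) → SL_2n(ℝ)`. -/
def spHom (n : ℕ) : Matrix.symplecticGroup (Fin n) ℝ →* SpecialLinearGroup (Fin (n + n)) ℝ where
  toFun g := ⟨spR g, spR_det g⟩
  map_one' := Subtype.ext re2_one
  map_mul' g h := Subtype.ext (re2_mul _ _)

theorem spHom_coe (g : Matrix.symplecticGroup (Fin n) ℝ) :
    ((spHom n g : SpecialLinearGroup (Fin (n + n)) ℝ) : Matrix (Fin (n + n)) (Fin (n + n)) ℝ) =
      spR g := rfl

theorem spR_injective : Function.Injective (spR (n := n)) := fun _ _ h =>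
  Subtype.ext (re2_injective h)

/-! ### The integral symplectic group -/

/-- `Sp_2n(ℤ) → Sp_2n(ℝ)`. -/
def spZR (n : ℕ) : SpZ n →* Matrix.symplecticGroup (Fin n) ℝ where
  toFun g := ⟨(g : Matrix (Fin n ⊕ Fin n) (Fin n ⊕ Fin n) ℤ).map (Int.castRingHom ℝ), by
    have h := SymplecticGroup.mem_iff.mp g.2
    rw [SymplecticGroup.mem_iff]
    have e : (Matrix.J (Fin n) ℤ).map (Int.castRingHom ℝ) = Matrix.J (Fin n) ℝ := by
      ext i j
      rcases i with i | i <;> rcases j with j | j <;>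
        simp [Matrix.J, Matrix.fromBlocks, Matrix.one_apply]
    have := congrArg (fun A => A.map (Int.castRingHom ℝ)) h
    simp only [Matrix.map_mul, e] at this
    exact this⟩
  map_one' := by
    apply Subtype.ext
    change (1 : Matrix (Fin n ⊕ Fin n) (Fin n ⊕ Fin n) ℤ).map (Int.castRingHom ℝ) = 1
    rw [Matrix.map_one _ (map_zero _) (map_one _)]
  map_mul' g h := by
    apply Subtype.ext
    change ((g : Matrix (Fin n ⊕ Fin n) (Fin n ⊕ Fin n) ℤ) *
      (h : Matrix (Fin n ⊕ Fin n) (Fin n ⊕ Fin n) ℤ)).map (Int.castRingHom ℝ) = _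
    rw [Matrix.map_mul]
    rfl

theorem spZR_injective : Function.Injective (spZR n) := by
  intro g h e
  apply Subtype.ext
  ext i j
  have h1 := congrFun (congrFun (congrArg Subtype.val e) i) j
  simpa [spZR] using h1

/-- `Sp_2n(ℤ)` as a group of real matrices of size `n + n`. -/
def spZ (g : SpZ n) : Matrix (Fin (n + n)) (Fin (n + n)) ℝ := spR (spZR n g)

theorem spZ_int (g : SpZ n) (i j : Fin (n + n)) :
    spZ g i j = (((g : Matrix (Fin n ⊕ Fin n) (Fin n ⊕ Fin n) ℤ)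
      (finSumFinEquiv.symm i) (finSumFinEquiv.symm j) : ℤ) : ℝ) := rfl

/-- **Balls in `Sp_2n(ℤ)` are finite.** -/
theorem spZ_finite (R : ℝ) : {g : SpZ n | hs (spZ g) ≤ R}.Finite := by
  have h1 : {A : (Fin n ⊕ Fin n) → (Fin n ⊕ Fin n) → ℤ |
      ∀ i, A i ∈ {f : (Fin n ⊕ Fin n) → ℤ | ∀ j, f j ∈ (Finset.Icc (-⌈R⌉) ⌈R⌉ : Set ℤ)}}.Finite :=
    Set.Finite.pi' fun _ => Set.Finite.pi' fun _ => Finset.finite_toSet _
  refine Set.Finite.of_finite_image (f := fun g : SpZ n =>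
    ((g : Matrix (Fin n ⊕ Fin n) (Fin n ⊕ Fin n) ℤ) : (Fin n ⊕ Fin n) → (Fin n ⊕ Fin n) → ℤ))
    (h1.subset ?_) ?_
  · rintro A ⟨g, hg, rfl⟩ i j
    have h2 : (spZ g (finSumFinEquiv i) (finSumFinEquiv j)) ^ 2 ≤ R := by
      refine le_trans ?_ hg
      unfold hs
      refine le_trans ?_ (Finset.single_le_sum
        (f := fun i => ∑ j, spZ g i j ^ 2)
        (fun i _ => Finset.sum_nonneg fun _ _ => sq_nonneg _) (Finset.mem_univ (finSumFinEquiv i)))
      exact Finset.single_le_sum (f := fun j => spZ g (finSumFinEquiv i) j ^ 2)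
        (fun j _ => sq_nonneg _) (Finset.mem_univ (finSumFinEquiv j))
    rw [spZ_int, Equiv.symm_apply_apply, Equiv.symm_apply_apply] at h2
    set a : ℤ := (g : Matrix (Fin n ⊕ Fin n) (Fin n ⊕ Fin n) ℤ) i j
    have h3 : a ^ 2 ≤ ⌈R⌉ := by
      have : ((a ^ 2 : ℤ) : ℝ) ≤ (⌈R⌉ : ℝ) := by
        push_cast
        exact h2.trans (Int.le_ceil R)
      exact_mod_cast this
    have h4 : |a| ≤ ⌈R⌉ := by
      rcases eq_or_ne a 0 with h0 | h0
      · rw [h0, abs_zero]
        rw [h0] at h3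
        simpa using h3
      · have : (1 : ℤ) ≤ |a| := Int.one_le_abs h0
        nlinarith [sq_abs a]
    exact Finset.mem_Icc.mpr (abs_le.mp h4)
  · intro g _ h _ e
    exact Subtype.ext e

theorem spZ_det (g : SpZ n) : (spZ g).det = 1 := spR_det _

theorem spZ_form (g : SpZ n) : spZ g * Jr n * (spZ g)ᵀ = Jr n := spR_form _

theorem spZ_mul (g h : SpZ n) : spZ (g * h) = spZ g * spZ h := by
  rw [spZ, map_mul, spR]
  exact re2_mul _ _

theorem spZ_one : spZ (1 : SpZ n) = 1 := by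
  rw [spZ, map_one]
  exact re2_one

end Vale.Agent.P092.H17
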