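import Vale.Agent.P092.H17.SpChain

/-!
P092 (helper17): topology of `Sp_2n(k)`.
-/

set_option linter.unusedSectionVars false

namespace Vale.Agent.P092.H17

open Matrix Topology Filter

variable {n : ℕ} {k : Type} [Field k] [TopologicalSpace k] [IsTopologicalRing k]

theorem spK_continuous_coe :
    Continuous (fun g : SpK n k => (g : Matrix (Fin n ⊕ Fin n) (Fin n ⊕ Fin n) k)) :=
  continuous_subtype_val

instance : IsTopologicalGroup (SpK n k) where
  continuous_mul := continuous_mul
  continuous_inv := by
    rw [continuous_induced_rng]
    have e : (Subtype.val ∘ fun g : SpK n k => g⁻¹) = fun g : SpK n k =>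
        (-(Matrix.J (Fin n) k)) * (g : Matrix (Fin n ⊕ Fin n) (Fin n ⊕ Fin n) k)ᵀ *
          Matrix.J (Fin n) k := by
      funext g
      exact SymplecticGroup.coe_inv g
    rw [e]
    exact (continuous_const.matrix_mul (continuous_subtype_val.matrix_transpose)).matrix_mul
      continuous_const

theorem spK_isClosed [T2Space k] :
    IsClosed {A : Matrix (Fin n ⊕ Fin n) (Fin n ⊕ Fin n) k | A ∈ Matrix.symplecticGroup (Fin n) k} := by
  have : {A : Matrix (Fin n ⊕ Fin n) (Fin n ⊕ Fin n) k | A ∈ Matrix.symplecticGroup (Fin n) k} =
      {A | A * Matrix.J (Fin n) k * Aᵀ = Matrix.J (Fin n) k} := by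
    ext A
    exact SymplecticGroup.mem_iff
  rw [this]
  exact isClosed_eq ((continuous_id.matrix_mul continuous_const).matrix_mul
    continuous_id.matrix_transpose) continuous_const

instance [T2Space k] [LocallyCompactSpace k] : LocallyCompactSpace (SpK n k) := by
  have : LocallyCompactSpace (Matrix (Fin n ⊕ Fin n) (Fin n ⊕ Fin n) k) :=
    inferInstanceAs (LocallyCompactSpace ((Fin n ⊕ Fin n) → (Fin n ⊕ Fin n) → k))
  exact (spK_isClosed (n := n) (k := k)).isClosedEmbedding_subtypeVal.locallyCompactSpace

instance [SecondCountableTopology k] : SecondCountableTopology (SpK n k) := by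
  have : SecondCountableTopology (Matrix (Fin n ⊕ Fin n) (Fin n ⊕ Fin n) k) :=
    inferInstanceAs (SecondCountableTopology ((Fin n ⊕ Fin n) → (Fin n ⊕ Fin n) → k))
  exact TopologicalSpace.Subtype.secondCountableTopology
    {A : Matrix (Fin n ⊕ Fin n) (Fin n ⊕ Fin n) k | A ∈ Matrix.symplecticGroup (Fin n) k}

instance [T2Space k] : T2Space (SpK n k) := by
  have : T2Space (Matrix (Fin n ⊕ Fin n) (Fin n ⊕ Fin n) k) :=
    inferInstanceAs (T2Space ((Fin n ⊕ Fin n) → (Fin n ⊕ Fin n) → k))
  exact inferInstanceAs (T2Space
    {A : Matrix (Fin n ⊕ Fin n) (Fin n ⊕ Fin n) k // A ∈ Matrix.symplecticGroup (Fin n) k})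

/-- continuity of matrices with continuous entries -/
theorem continuous_spK {X : Type} [TopologicalSpace X] {f : X → SpK n k}
    (h : ∀ a b, Continuous fun x => (f x : Matrix (Fin n ⊕ Fin n) (Fin n ⊕ Fin n) k) a b) :
    Continuous f :=
  continuous_induced_rng.mpr (continuous_matrix h)

theorem continuous_transvection_apply (j p a b : Fin n) :
    Continuous fun t : k => transvection j p t a b := by
  unfold transvection
  simp only [Matrix.add_apply, Matrix.single_apply]
  refine continuous_const.add ?_
  split_ifs
  · exact continuous_id
  · exact continuous_const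

theorem continuous_spUp (j : Fin n) : Continuous (spUp (k := k) j) := by
  unfold spUp
  split_ifs with h
  · refine continuous_spK ?_
    rintro (a | a) (b | b)
    · exact continuous_transvection_apply _ _ _ _
    · exact continuous_const
    · exact continuous_const
    · exact (continuous_transvection_apply _ _ a b).comp continuous_neg
  · refine continuous_spK ?_
    rintro (a | a) (b | b)
    · exact continuous_const
    · change Continuous fun t : k => single j j t a b
      simp only [Matrix.single_apply]
      split_ifs
      · exact continuous_id
      · exact continuous_const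
    · exact continuous_const
    · exact continuous_const

theorem continuous_spLo (j : Fin n) : Continuous (spLo (k := k) j) := by
  unfold spLo
  split_ifs with h
  · refine continuous_spK ?_
    rintro (a | a) (b | b)
    · exact continuous_transvection_apply _ _ _ _
    · exact continuous_const
    · exact continuous_const
    · exact (continuous_transvection_apply _ _ a b).comp continuous_neg
  · refine continuous_spK ?_
    rintro (a | a) (b | b)
    · exact continuous_const
    · exact continuous_const
    · change Continuous fun t : k => single j j t a b
      simp only [Matrix.single_apply]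
      split_ifs
      · exact continuous_id
      · exact continuous_const
    · exact continuous_const

theorem continuous_spY (j : Fin n) : Continuous (spY (k := k) j) := by
  unfold spY spRow
  have h : ∀ a : Fin n ⊕ Fin n, Continuous fun g : SpK n k =>
      (g : Matrix (Fin n ⊕ Fin n) (Fin n ⊕ Fin n) k) a := fun a =>
    (continuous_apply a).comp continuous_subtype_val
  exact (h _).prodMk (h _)

end Vale.Agent.P092.H17
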