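import Vale.Agent.P092.H944.Gap

/-!
P092 (helper17): singular values of symplectic matrices: `a i * a (rev i) = 1`.
-/

namespace Vale.Agent.P092.H17

open Matrix Polynomial Vale.Agent.P092.H944

variable {n : ℕ}

/-- Two antitone functions with the same multiset of values are equal. -/
theorem antitone_unique {a b : Fin n → ℝ} (ha : Antitone a) (hb : Antitone b)
    (h : Multiset.map a Finset.univ.val = Multiset.map b Finset.univ.val) : a = b := by
  have h1 : (List.ofFn a).Perm (List.ofFn b) := by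
    rw [← Multiset.coe_eq_coe]
    have e : ∀ f : Fin n → ℝ, ((List.ofFn f : List ℝ) : Multiset ℝ) =
        Multiset.map f Finset.univ.val := by
      intro f
      rw [List.ofFn_eq_map, ← Multiset.map_coe]
      rfl
    rw [e, e, h]
  have s : ∀ f : Fin n → ℝ, Antitone f → (List.ofFn f).Pairwise (· ≥ ·) := by
    intro f hf
    rw [List.pairwise_ofFn]
    exact fun i j hij => hf hij.le
  have h2 : List.ofFn a = List.ofFn b := h1.eq_of_pairwise (fun x y _ _ h1 h2 => le_antisymm h2 h1)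
    (s a ha) (s b hb)
  exact List.ofFn_injective h2

theorem charpoly_diag (d : Fin n → ℝ) : (diagonal d).charpoly = ∏ i, (X - C (d i)) := by
  rw [charpoly, charmatrix]
  have : scalar (Fin n) (X : ℝ[X]) - (C : ℝ →+* ℝ[X]).mapMatrix (diagonal d) =
      diagonal fun i => X - C (d i) := by
    ext i j
    by_cases h : i = j
    · subst h; simp
    · simp [h]
  rw [this, det_diagonal]

theorem charpoly_conj {U M : Matrix (Fin n) (Fin n) ℝ} (h : Uᵀ * U = 1) :
    (U * M * Uᵀ).charpoly = M.charpoly := by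
  rw [Matrix.mul_assoc, charpoly_mul_comm, Matrix.mul_assoc, h, Matrix.mul_one]

/-- Conjugate diagonal matrices with decreasing entries are equal. -/
theorem diag_unique {U : Matrix (Fin n) (Fin n) ℝ} (h : Uᵀ * U = 1) {a b : Fin n → ℝ}
    (ha : Antitone a) (hb : Antitone b) (e : diagonal b = U * diagonal a * Uᵀ) : a = b := by
  have h1 : (∏ i, (X - C (b i)) : ℝ[X]) = ∏ i, (X - C (a i)) := by
    rw [← charpoly_diag, ← charpoly_diag, e, charpoly_conj h]
  have h2 := congrArg Polynomial.roots h1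
  rw [Finset.prod_eq_multiset_prod, Finset.prod_eq_multiset_prod] at h2
  have r : ∀ f : Fin n → ℝ, (Multiset.map (fun i => X - C (f i)) Finset.univ.val).prod.roots =
      Multiset.map f Finset.univ.val := by
    intro f
    have := Polynomial.roots_multiset_prod_X_sub_C (Multiset.map f Finset.univ.val)
    rwa [Multiset.map_map] at this
  rw [r, r] at h2
  exact (antitone_unique hb ha h2).symm

/-- The singular values of `g` with `g J gᵀ = J`, `J` orthogonal, satisfy `a i * a (rev i) = 1`. -/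
theorem sv_mul_rev {g J k1 k2 : Matrix (Fin n) (Fin n) ℝ} {a : Fin n → ℝ}
    (hg : IsSVD g k1 a k2) (hJ : Jᵀ * J = 1) (hJ' : J * Jᵀ = 1) (h : g * J * gᵀ = J)
    (i : Fin n) : a i * a (Fin.rev i) = 1 := by
  -- `diag(a) (k2 J k2ᵀ) diag(a) = k1ᵀ J k1`
  have e1 : diagonal a * (k2 * J * k2ᵀ) * diagonal a = k1ᵀ * J * k1 := by
    have : k1ᵀ * (g * J * gᵀ) * k1 = k1ᵀ * J * k1 := by rw [h]
    rw [← this, hg.eq, transpose_mul, transpose_mul, diagonal_transpose]
    calc diagonal a * (k2 * J * k2ᵀ) * diagonal a =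
        (k1ᵀ * k1) * diagonal a * k2 * J * (k2ᵀ * (diagonal a * (k1ᵀ * k1))) := by
          rw [hg.o1]; simp only [Matrix.mul_assoc, Matrix.one_mul, Matrix.mul_one]
      _ = _ := by simp only [Matrix.mul_assoc]
  obtain ⟨A, hA⟩ : ∃ A, A = k2 * J * k2ᵀ := ⟨_, rfl⟩
  obtain ⟨B, hB⟩ : ∃ B, B = k1ᵀ * J * k1 := ⟨_, rfl⟩
  rw [← hA, ← hB] at e1
  have hAo : A * Aᵀ = 1 := by
    rw [hA, transpose_mul, transpose_mul, transpose_transpose]
    calc k2 * J * k2ᵀ * (k2 * (Jᵀ * k2ᵀ)) = k2 * (J * ((k2ᵀ * k2) * (Jᵀ * k2ᵀ))) := by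
          simp only [Matrix.mul_assoc]
      _ = k2 * ((J * Jᵀ) * k2ᵀ) := by rw [hg.o2, Matrix.one_mul, Matrix.mul_assoc]
      _ = 1 := by rw [hJ', Matrix.one_mul, hg.o2']
  have hBo : Bᵀ * B = 1 := by
    rw [hB, transpose_mul, transpose_mul, transpose_transpose]
    calc k1ᵀ * (Jᵀ * k1) * (k1ᵀ * J * k1) = k1ᵀ * (Jᵀ * ((k1 * k1ᵀ) * (J * k1))) := by
          simp only [Matrix.mul_assoc]
      _ = k1ᵀ * ((Jᵀ * J) * k1) := by rw [hg.o1', Matrix.one_mul, Matrix.mul_assoc]
      _ = 1 := by rw [hJ, Matrix.one_mul, hg.o1]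
  have hAo' : Aᵀ * A = 1 := mul_eq_one_comm.mp hAo
  have hBo' : B * Bᵀ = 1 := mul_eq_one_comm.mp hBo
  -- `A diag(a²) Aᵀ = diag(a⁻²)`
  have e2 : diagonal a * A = B * diagonal (fun i => (a i)⁻¹) := by
    have h1 : diagonal a * diagonal (fun i => (a i)⁻¹) = 1 := by
      rw [diagonal_mul_diagonal, ← diagonal_one]
      congr 1
      funext i
      exact mul_inv_cancel₀ (hg.pos i).ne'
    rw [← e1, Matrix.mul_assoc, h1, Matrix.mul_one]
  have e3 : Aᵀ * diagonal (fun i => a i * a i) * A = diagonal (fun i => (a i)⁻¹ * (a i)⁻¹) := by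
    calc Aᵀ * diagonal (fun i => a i * a i) * A = (diagonal a * A)ᵀ * (diagonal a * A) := by
          rw [transpose_mul, diagonal_transpose, ← diagonal_mul_diagonal]
          simp only [Matrix.mul_assoc]
      _ = (B * diagonal (fun i => (a i)⁻¹))ᵀ * (B * diagonal (fun i => (a i)⁻¹)) := by rw [e2]
      _ = diagonal (fun i => (a i)⁻¹) * (Bᵀ * B) * diagonal (fun i => (a i)⁻¹) := by
          rw [transpose_mul, diagonal_transpose]
          simp only [Matrix.mul_assoc]
      _ = _ := by rw [hBo, Matrix.mul_one, diagonal_mul_diagonal]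
  -- reverse the order
  let σ : Equiv.Perm (Fin n) := Fin.revPerm
  obtain ⟨P, hP⟩ : ∃ P : Matrix (Fin n) (Fin n) ℝ, P = Aᵀ.submatrix σ id := ⟨_, rfl⟩
  have hPo : Pᵀ * P = 1 := by
    have : Pᵀ * P = A * Aᵀ := by
      rw [hP, transpose_submatrix, transpose_transpose]
      ext i j
      simp only [Matrix.mul_apply, submatrix_apply, id]
      exact Equiv.sum_comp σ (fun x => A i x * Aᵀ x j)
    rw [this, hAo]
  have e4 : diagonal (fun i => (a (Fin.rev i))⁻¹ * (a (Fin.rev i))⁻¹) =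
      P * diagonal (fun i => a i * a i) * Pᵀ := by
    have : P * diagonal (fun i => a i * a i) * Pᵀ =
        (Aᵀ * diagonal (fun i => a i * a i) * A).submatrix σ σ := by
      rw [hP]
      ext i j
      simp [Matrix.mul_apply, submatrix_apply]
    rw [this, e3]
    ext i j
    by_cases hij : i = j
    · subst hij; simp [σ]
    · simp [hij, σ]
  have ha2 : Antitone (fun i => a i * a i) := fun i j hij =>
    mul_self_le_mul_self (hg.pos j).le (hg.anti hij)
  have ha3 : Antitone (fun i => (a (Fin.rev i))⁻¹ * (a (Fin.rev i))⁻¹) := by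
    intro i j hij
    have h1 : a (Fin.rev i) ≤ a (Fin.rev j) := hg.anti (Fin.rev_le_rev.mpr hij)
    have h2 : (a (Fin.rev j))⁻¹ ≤ (a (Fin.rev i))⁻¹ := inv_anti₀ (hg.pos _) h1
    exact mul_self_le_mul_self (inv_nonneg.mpr (hg.pos _).le) h2
  have e5 : a i * a i = (a (Fin.rev i))⁻¹ * (a (Fin.rev i))⁻¹ :=
    congrFun (diag_unique hPo ha2 ha3 e4) i
  have h1 := hg.pos i
  have h2 := hg.pos (Fin.rev i)
  have e6 : (a i * a (Fin.rev i)) * (a i * a (Fin.rev i)) = 1 := by
    have : (a i * a (Fin.rev i)) * (a i * a (Fin.rev i)) =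
        (a i * a i) * (a (Fin.rev i) * a (Fin.rev i)) := by ring
    rw [this, e5]
    field_simp
  rcases mul_self_eq_one_iff.mp e6 with h3 | h3
  · exact h3
  · have := mul_pos h1 h2
    linarith

theorem la_rev {g J : Matrix (Fin n) (Fin n) ℝ} (hg : g.det ≠ 0) (hJ : Jᵀ * J = 1)
    (hJ' : J * Jᵀ = 1) (h : g * J * gᵀ = J) {j : ℕ} (hj : j < n) :
    la g j = - la g (n - 1 - j) := by
  have h1 := sv_mul_rev (isSVD hg) hJ hJ' h ⟨j, hj⟩
  have e : Fin.rev (⟨j, hj⟩ : Fin n) = ⟨n - 1 - j, by omega⟩ := by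
    apply Fin.ext
    simp only [Fin.val_rev]
    omega
  rw [e] at h1
  have p1 := (isSVD hg).pos ⟨j, hj⟩
  have p2 := (isSVD hg).pos ⟨n - 1 - j, by omega⟩
  have h2 := congrArg Real.log h1
  rw [Real.log_mul p1.ne' p2.ne', Real.log_one] at h2
  rw [la, dif_pos hj, la, dif_pos (by omega : n - 1 - j < n)]
  linarith

/-- **The gaps of a symplectic matrix are symmetric**: `gap j g = gap (n - 2 - j) g`. -/
theorem gap_rev {g J : Matrix (Fin n) (Fin n) ℝ} (hg : g.det ≠ 0) (hJ : Jᵀ * J = 1)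
    (hJ' : J * Jᵀ = 1) (h : g * J * gᵀ = J) {j : ℕ} (hj : j + 1 < n) :
    gap j g = gap (n - 2 - j) g := by
  rw [gap, if_pos hj, gap, if_pos (by omega), la_rev hg hJ hJ' h (by omega : j < n),
    la_rev hg hJ hJ' h hj]
  have e1 : n - 2 - j + 1 = n - 1 - j := by omega
  have e2 : n - 1 - (j + 1) = n - 2 - j := by omega
  rw [e1, e2]
  ring

end Vale.Agent.P092.H17
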