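import Mathlib

/-!
P092 (helper17): the torus of `Sp_2n(k)`, its fundamental coweights and the root subgroups of the
simple roots `e_j - e_{j+1}` and `2 e_{n-1}`, acting on two rows.
-/

namespace Vale.Agent.P092.H17

open Matrix

variable {n : ℕ} {k : Type} [Field k]

/-- `Sp_2n(k)` -/
abbrev SpK (n : ℕ) (k : Type) [Field k] : Type := Matrix.symplecticGroup (Fin n) k

/-- the block diagonal element `(A, B)`, `A Bᵀ = 1` -/
def spD (A B : Matrix (Fin n) (Fin n) k) (h : A * Bᵀ = 1) : SpK n k :=
  ⟨fromBlocks A 0 0 B, by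
    have h' : B * Aᵀ = 1 := by
      rw [← transpose_transpose B, ← transpose_mul, h, transpose_one]
    rw [SymplecticGroup.mem_iff, Matrix.J, fromBlocks_transpose, fromBlocks_multiply,
      fromBlocks_multiply]
    simp [h, h']⟩

/-- the upper unipotent element of a symmetric matrix -/
def spU (S : Matrix (Fin n) (Fin n) k) (h : Sᵀ = S) : SpK n k :=
  ⟨fromBlocks 1 S 0 1, by
    rw [SymplecticGroup.mem_iff, Matrix.J, fromBlocks_transpose, fromBlocks_multiply,
      fromBlocks_multiply]
    simp [h]⟩

/-- the lower unipotent element of a symmetric matrix -/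
def spL (S : Matrix (Fin n) (Fin n) k) (h : Sᵀ = S) : SpK n k :=
  ⟨fromBlocks 1 0 S 1, by
    rw [SymplecticGroup.mem_iff, Matrix.J, fromBlocks_transpose, fromBlocks_multiply,
      fromBlocks_multiply]
    simp [h]⟩

/-- the fundamental coweights: `ω` in the coordinates `≤ i`, `1` in the others -/
def cw (ω : k) (i : Fin n) (p : Fin n) : k := if p ≤ i then ω else 1

theorem cw_mul_inv {ω : k} (hω : ω ≠ 0) (i p : Fin n) : cw ω i p * cw ω⁻¹ i p = 1 := by
  unfold cw
  split_ifs
  · exact mul_inv_cancel₀ hω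
  · exact one_mul _

theorem cw_eq {ω : k} {i j p : Fin n} (hij : i ≠ j) (hp : p.1 = j.1 + 1) :
    cw ω i j = cw ω i p := by
  unfold cw
  have h1 : j ≤ i ↔ p ≤ i := by
    rw [Fin.le_def, Fin.le_def]
    have : i.1 ≠ j.1 := fun e => hij (Fin.ext e)
    omega
  simp only [h1]

theorem cw_last {ω : k} {i j : Fin n} (hij : i ≠ j) (hj : ¬ j.1 + 1 < n) : cw ω i j = 1 := by
  unfold cw
  rw [if_neg]
  rw [Fin.le_def]
  have : i.1 ≠ j.1 := fun e => hij (Fin.ext e)
  have := i.2
  omega

/-- the element of the torus for the coweight `i` -/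
def spB (ω : k) (hω : ω ≠ 0) (i : Fin n) : SpK n k :=
  spD (diagonal (cw ω i)) (diagonal (cw ω⁻¹ i)) (by
    rw [diagonal_transpose, diagonal_mul_diagonal, ← diagonal_one]
    congr 1
    funext p
    exact cw_mul_inv hω i p)

/-- `(A, B)` with the root element `1 + t e_{jp}` -/
def spR2 (j p : Fin n) (hjp : j ≠ p) (t : k) : SpK n k :=
  spD (transvection j p t) (transvection p j (-t)) (by
    have : (transvection p j (-t))ᵀ = transvection j p (-t) := by
      simp [transvection]
    rw [this, transvection_mul_transvection_same _ _ hjp, add_neg_cancel, transvection_zero])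

/-- the root element of the simple root `j` -/
def spUp (j : Fin n) (t : k) : SpK n k :=
  if h : j.1 + 1 < n then spR2 j ⟨j.1 + 1, h⟩ (fun e => by
      have := congrArg Fin.val e; simp at this) t
  else spU (single j j t) (by rw [transpose_single])

/-- the root element of the opposite of the simple root `j` -/
def spLo (j : Fin n) (t : k) : SpK n k :=
  if h : j.1 + 1 < n then spR2 ⟨j.1 + 1, h⟩ j (fun e => by
      have := congrArg Fin.val e; simp at this) t
  else spL (single j j t) (by rw [transpose_single])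

theorem spB_comm (ω ω' : k) (hω : ω ≠ 0) (hω' : ω' ≠ 0) (i j : Fin n) :
    spB ω hω i * spB ω' hω' j = spB ω' hω' j * spB ω hω i := by
  apply Subtype.ext
  change fromBlocks _ _ _ _ * fromBlocks _ _ _ _ = fromBlocks _ _ _ _ * fromBlocks _ _ _ _
  rw [fromBlocks_multiply, fromBlocks_multiply]
  simp only [Matrix.zero_mul, Matrix.mul_zero, add_zero, zero_add, diagonal_mul_diagonal]
  congr 2 <;> · funext p; exact mul_comm _ _

theorem diag_comm_transvection (d : Fin n → k) {j p : Fin n} (h : d j = d p) (t : k) :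
    diagonal d * transvection j p t = transvection j p t * diagonal d := by
  unfold transvection
  rw [Matrix.mul_add, Matrix.add_mul, Matrix.mul_one, Matrix.one_mul]
  congr 1
  ext a b
  rw [diagonal_mul, mul_diagonal]
  by_cases hab : j = a ∧ p = b
  · obtain ⟨rfl, rfl⟩ := hab
    rw [h, mul_comm]
  · rw [single_apply_of_ne _ _ _ _ _ hab, mul_zero, zero_mul]

theorem spB_comm_R2 (ω : k) (hω : ω ≠ 0) {i j p : Fin n} (hjp : j ≠ p)
    (h : cw ω i j = cw ω i p) (h' : cw ω⁻¹ i j = cw ω⁻¹ i p) (t : k) :
    spB ω hω i * spR2 j p hjp t = spR2 j p hjp t * spB ω hω i := by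
  apply Subtype.ext
  change fromBlocks _ _ _ _ * fromBlocks _ _ _ _ = fromBlocks _ _ _ _ * fromBlocks _ _ _ _
  rw [fromBlocks_multiply, fromBlocks_multiply]
  simp only [Matrix.zero_mul, Matrix.mul_zero, add_zero, zero_add]
  rw [diag_comm_transvection _ h, diag_comm_transvection _ h'.symm]

theorem spB_comm_up (ω : k) (hω : ω ≠ 0) {i j : Fin n} (hij : i ≠ j) (t : k) :
    spB ω hω i * spUp j t = spUp j t * spB ω hω i := by
  unfold spUp
  split_ifs with h
  · exact spB_comm_R2 ω hω _ (cw_eq hij rfl) (cw_eq hij rfl) t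
  · apply Subtype.ext
    change fromBlocks _ _ _ _ * fromBlocks _ _ _ _ = fromBlocks _ _ _ _ * fromBlocks _ _ _ _
    rw [fromBlocks_multiply, fromBlocks_multiply]
    simp only [Matrix.zero_mul, Matrix.mul_zero, add_zero, zero_add, Matrix.mul_one,
      Matrix.one_mul]
    congr 1
    ext a b
    rw [diagonal_mul, mul_diagonal]
    by_cases hab : j = a ∧ j = b
    · obtain ⟨rfl, rfl⟩ := hab
      rw [cw_last hij h, cw_last hij h, mul_one, one_mul]
    · rw [single_apply_of_ne _ _ _ _ _ hab, mul_zero, zero_mul]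

theorem spB_comm_lo (ω : k) (hω : ω ≠ 0) {i j : Fin n} (hij : i ≠ j) (t : k) :
    spB ω hω i * spLo j t = spLo j t * spB ω hω i := by
  unfold spLo
  split_ifs with h
  · exact spB_comm_R2 ω hω _ (cw_eq hij rfl).symm (cw_eq hij rfl).symm t
  · apply Subtype.ext
    change fromBlocks _ _ _ _ * fromBlocks _ _ _ _ = fromBlocks _ _ _ _ * fromBlocks _ _ _ _
    rw [fromBlocks_multiply, fromBlocks_multiply]
    simp only [Matrix.zero_mul, Matrix.mul_zero, add_zero, zero_add, Matrix.mul_one,
      Matrix.one_mul]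
    congr 1
    ext a b
    rw [diagonal_mul, mul_diagonal]
    by_cases hab : j = a ∧ j = b
    · obtain ⟨rfl, rfl⟩ := hab
      rw [cw_last hij h, cw_last hij h, mul_one, one_mul]
    · rw [single_apply_of_ne _ _ _ _ _ hab, mul_zero, zero_mul]

/-- the second row on which the root subgroups of the simple root `j` act -/
def row2 (j : Fin n) : Fin n ⊕ Fin n :=
  if h : j.1 + 1 < n then Sum.inl ⟨j.1 + 1, h⟩ else Sum.inr j

/-- a row of a symplectic matrix -/
def spRow (g : SpK n k) (a : Fin n ⊕ Fin n) : Fin n ⊕ Fin n → k :=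
  (g : Matrix (Fin n ⊕ Fin n) (Fin n ⊕ Fin n) k) a

/-- two rows of a symplectic matrix -/
def spY (j : Fin n) (g : SpK n k) : (Fin n ⊕ Fin n → k) × (Fin n ⊕ Fin n → k) :=
  (spRow g (Sum.inl j), spRow g (row2 j))

theorem coe_mul_row (h g : SpK n k) (a : Fin n ⊕ Fin n) :
    spRow (h * g) a =
      ∑ c, (h : Matrix (Fin n ⊕ Fin n) (Fin n ⊕ Fin n) k) a c • spRow g c := by
  funext b
  rw [Finset.sum_apply]
  exact Matrix.mul_apply

theorem spY_ne (j : Fin n) (g : SpK n k) : spY j g ≠ 0 := by
  intro h0
  have h1 : (g : Matrix (Fin n ⊕ Fin n) (Fin n ⊕ Fin n) k) (Sum.inl j) = 0 := congrArg Prod.fst h0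
  have h2 : (g : Matrix (Fin n ⊕ Fin n) (Fin n ⊕ Fin n) k).det = 0 :=
    Matrix.det_eq_zero_of_row_eq_zero (Sum.inl j) (fun b => congrFun h1 b)
  have h3 := SymplecticGroup.symplectic_det g.2
  rw [h2] at h3
  exact not_isUnit_zero h3

theorem row_add (h g : SpK n k) {a b : Fin n ⊕ Fin n} {α t : k}
    (hh : ∀ c, (h : Matrix (Fin n ⊕ Fin n) (Fin n ⊕ Fin n) k) a c =
      (if c = a then α else 0) + (if c = b then t else 0)) :
    spRow (h * g) a = α • spRow g a + t • spRow g b := by
  rw [coe_mul_row]
  simp only [hh, add_smul, Finset.sum_add_distrib, ite_smul, zero_smul, Finset.sum_ite_eq',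
    Finset.mem_univ, if_true]

theorem row_smul (h g : SpK n k) {a : Fin n ⊕ Fin n} {α : k}
    (hh : ∀ c, (h : Matrix (Fin n ⊕ Fin n) (Fin n ⊕ Fin n) k) a c = if c = a then α else 0) :
    spRow (h * g) a = α • spRow g a := by
  rw [coe_mul_row]
  simp only [hh, ite_smul, zero_smul, Finset.sum_ite_eq', Finset.mem_univ, if_true]

theorem trans_row {i j : Fin n} (t : k) (c : Fin n) :
    transvection i j t i c = (if c = i then 1 else 0) + (if c = j then t else 0) := by
  rw [transvection, Matrix.add_apply, Matrix.one_apply, Matrix.single_apply]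
  simp only [eq_comm, true_and]

theorem trans_row_ne {i j a : Fin n} (h : i ≠ a) (t : k) (c : Fin n) :
    transvection i j t a c = (if c = a then 1 else 0) := by
  rw [transvection, Matrix.add_apply, Matrix.one_apply, Matrix.single_apply,
    if_neg (show ¬ (i = a ∧ j = c) from fun e => h e.1), add_zero]
  simp only [eq_comm]

theorem spY_up (j : Fin n) (t : k) (g : SpK n k) :
    spY j (spUp j t * g) = ((spY j g).1 + t • (spY j g).2, (spY j g).2) := by
  unfold spY spUp row2
  split_ifs with h
  · have hne : j ≠ (⟨j.1 + 1, h⟩ : Fin n) := fun e => by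
      have := congrArg Fin.val e; simp at this
    refine Prod.ext ?_ ?_
    · change spRow (spR2 j ⟨j.1 + 1, h⟩ _ t * g) (Sum.inl j) = _
      rw [row_add (α := 1) (t := t) (b := Sum.inl ⟨j.1 + 1, h⟩), one_smul]
      rintro (c | c)
      · exact (trans_row t c).trans (by simp)
      · simp [spR2, spD]
    · change spRow (spR2 j ⟨j.1 + 1, h⟩ _ t * g) (Sum.inl ⟨j.1 + 1, h⟩) = _
      rw [row_smul (α := 1), one_smul]
      rintro (c | c)
      · exact (trans_row_ne hne t c).trans (by simp)
      · simp [spR2, spD]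
  · refine Prod.ext ?_ ?_
    · change spRow (spU _ _ * g) (Sum.inl j) = _
      rw [row_add (α := 1) (t := t) (b := Sum.inr j), one_smul]
      rintro (c | c)
      · simp [spU, Matrix.one_apply, eq_comm]
      · simp [spU, Matrix.single_apply, eq_comm]
    · change spRow (spU _ _ * g) (Sum.inr j) = _
      rw [row_smul (α := 1), one_smul]
      rintro (c | c)
      · simp [spU]
      · simp [spU, Matrix.one_apply, eq_comm]

theorem spY_lo (j : Fin n) (t : k) (g : SpK n k) :
    spY j (spLo j t * g) = ((spY j g).1, (spY j g).2 + t • (spY j g).1) := by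
  unfold spY spLo row2
  split_ifs with h
  · have hne : (⟨j.1 + 1, h⟩ : Fin n) ≠ j := fun e => by
      have := congrArg Fin.val e; simp at this
    refine Prod.ext ?_ ?_
    · change spRow (spR2 ⟨j.1 + 1, h⟩ j _ t * g) (Sum.inl j) = _
      rw [row_smul (α := 1), one_smul]
      rintro (c | c)
      · exact (trans_row_ne hne t c).trans (by simp)
      · simp [spR2, spD]
    · change spRow (spR2 ⟨j.1 + 1, h⟩ j _ t * g) (Sum.inl ⟨j.1 + 1, h⟩) = _
      rw [row_add (α := 1) (t := t) (b := Sum.inl j), one_smul]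
      rintro (c | c)
      · exact (trans_row t c).trans (by simp)
      · simp [spR2, spD]
  · refine Prod.ext ?_ ?_
    · change spRow (spL _ _ * g) (Sum.inl j) = _
      rw [row_smul (α := 1), one_smul]
      rintro (c | c)
      · simp [spL, Matrix.one_apply, eq_comm]
      · simp [spL]
    · change spRow (spL _ _ * g) (Sum.inr j) = _
      rw [row_add (α := 1) (t := t) (b := Sum.inl j), one_smul]
      rintro (c | c)
      · simp [spL, Matrix.single_apply, eq_comm]
      · simp [spL, Matrix.one_apply, eq_comm]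

/-- the second eigenvalue of the coweight -/
def sβ (ω : k) (j : Fin n) : k := if j.1 + 1 < n then 1 else ω⁻¹

theorem spY_b (ω : k) (hω : ω ≠ 0) (j : Fin n) (g : SpK n k) :
    spY j (spB ω hω j * g) = (ω • (spY j g).1, sβ ω j • (spY j g).2) := by
  unfold spY sβ row2
  split_ifs with h
  · refine Prod.ext ?_ ?_
    · change spRow (spB ω hω j * g) (Sum.inl j) = _
      rw [row_smul (α := ω)]
      rintro (c | c)
      · by_cases hc : c = j
        · subst hc; simp [spB, spD, cw]
        · simp [spB, spD, Ne.symm hc, hc]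
      · simp [spB, spD]
    · change spRow (spB ω hω j * g) (Sum.inl ⟨j.1 + 1, h⟩) = _
      rw [row_smul (α := 1)]
      rintro (c | c)
      · have hlt : ¬ ((⟨j.1 + 1, h⟩ : Fin n) ≤ j) := by rw [Fin.le_def]; simp
        by_cases hc : c = (⟨j.1 + 1, h⟩ : Fin n)
        · subst hc; simp [spB, spD, cw, hlt]
        · simp [spB, spD, Ne.symm hc, hc]
      · simp [spB, spD]
  · refine Prod.ext ?_ ?_
    · change spRow (spB ω hω j * g) (Sum.inl j) = _
      rw [row_smul (α := ω)]
      rintro (c | c)
      · by_cases hc : c = j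
        · subst hc; simp [spB, spD, cw]
        · simp [spB, spD, Ne.symm hc, hc]
      · simp [spB, spD]
    · change spRow (spB ω hω j * g) (Sum.inr j) = _
      rw [row_smul (α := ω⁻¹)]
      rintro (c | c)
      · simp [spB, spD]
      · by_cases hc : c = j
        · subst hc; simp [spB, spD, cw]
        · simp [spB, spD, Ne.symm hc, hc]

end Vale.Agent.P092.H17
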