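import Vale.Agent.P092.H17.SpTop
import Vale.Agent.P092.H701.Chain

/-!
P092 (helper17): the chain of length `n` of `Sp_2n(k)` (simple roots `e_j - e_{j+1}`, `2 e_{n-1}`),
for every locally compact nontrivially normed field `k`.
-/

namespace Vale.Agent.P092.H17

open Matrix Topology Filter Vale.Agent.P092.H701

variable {n : ℕ} {k : Type} [NontriviallyNormedField k]

/-- the row pair of the simple root `j` -/
def spRow2 (j : Fin n) : RowPair (SpK n k) k (Fin n ⊕ Fin n → k) where
  ρ₁ g := (spY j g).1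
  ρ₂ g := (spY j g).2
  cont₁ := continuous_fst.comp (continuous_spY j)
  cont₂ := continuous_snd.comp (continuous_spY j)
  ne := by
    intro x
    rcases eq_or_ne (spY j x).1 0 with h | h
    · rcases eq_or_ne (spY j x).2 0 with h' | h'
      · exact absurd (Prod.ext h h') (spY_ne j x)
      · exact lt_max_of_lt_right (norm_pos_iff.mpr h')
    · exact lt_max_of_lt_left (norm_pos_iff.mpr h)
  up := spUp j
  lo := spLo j
  cont_up := continuous_spUp j
  cont_lo := continuous_spLo j
  up₁ t x := by rw [spY_up]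
  up₂ t x := by rw [spY_up]
  lo₁ t x := by rw [spY_lo]
  lo₂ t x := by rw [spY_lo]

/-- **`Sp_2n(k)` has a chain of length `n`.** -/
theorem exists_spChain (n : ℕ) (k : Type) [NontriviallyNormedField k] [ProperSpace k]
    [MeasurableSpace (SpK n k)] [OpensMeasurableSpace (SpK n k)] :
    Nonempty (HChain (SpK n k) n) := by
  obtain ⟨ω, hω⟩ := NormedField.exists_one_lt_norm k
  have hω0 : ω ≠ 0 := fun e => by rw [e, norm_zero] at hω; linarith
  have hp : ∀ N : ℕ, ω ^ N ≠ 0 := fun N => pow_ne_zero N hω0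
  refine ⟨{
    b := fun j N => spB (ω ^ N) (hp N) j
    K := fun j => (spRow2 j).K
    compact := fun j => (spRow2 j).isCompact_K
    comm_b := fun i j _ N M => spB_comm _ _ _ _ _ _
    comm_K := ?_
    pp := ?_ }⟩
  · rintro i j hij N x (⟨t, -, rfl⟩ | ⟨t, -, rfl⟩)
    · exact spB_comm_up _ _ hij.ne t
    · exact spB_comm_lo _ _ hij.ne t
  · intro j p
    refine (spRow2 j).pp (fun N => spB (ω ^ N) (hp N) j) (fun N => ω ^ N)
      (fun N => sβ (ω ^ N) j) ?_ ?_ hp ?_ p
    · intro N x
      change (spY j (spB (ω ^ N) (hp N) j * x)).1 = _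
      rw [spY_b]
      rfl
    · intro N x
      change (spY j (spB (ω ^ N) (hp N) j * x)).2 = _
      rw [spY_b]
      rfl
    · intro C
      obtain ⟨N₀, hN₀⟩ := (tendsto_pow_atTop_atTop_of_one_lt hω).eventually_ge_atTop |C|
        |>.exists_forall_of_atTop
      refine ⟨N₀, fun N hN => ?_⟩
      have h1 : ‖sβ (ω ^ N) j‖ ≤ 1 := by
        unfold sβ
        split_ifs
        · rw [norm_one]
        · rw [norm_inv, norm_pow]
          exact inv_le_one_of_one_le₀ (one_le_pow₀ hω.le)
      calc C * ‖sβ (ω ^ N) j‖ ≤ |C| * ‖sβ (ω ^ N) j‖ :=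
            mul_le_mul_of_nonneg_right (le_abs_self C) (norm_nonneg _)
        _ ≤ |C| * 1 := mul_le_mul_of_nonneg_left h1 (abs_nonneg C)
        _ = |C| := mul_one _
        _ ≤ ‖ω‖ ^ N := hN₀ N hN
        _ = ‖ω ^ N‖ := (norm_pow _ _).symm

end Vale.Agent.P092.H17
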