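import Vale.Agent.P092.H17.SpGaps

/-!
P092 (helper17): `PSp_2n(ℤ)` and its finite-index subgroups: matrices up to sign, conjugacy
classes.
-/

namespace Vale.Agent.P092.H17

open Matrix Vale.Agent.P092.H944

variable {n : ℕ}

/-- An integral symplectic matrix which has finitely many conjugates under a finite-index subgroup
is `± 1`. -/
theorem eq_or_neg_of_finite (Δ : Subgroup (SpZ n)) [Δ.FiniteIndex] (g : SpZ n)
    (hfin : {y : SpZ n | ∃ d ∈ Δ, y = d * g * d⁻¹}.Finite) :
    (g : Matrix (Fin n ⊕ Fin n) (Fin n ⊕ Fin n) ℤ) = 1 ∨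
      (g : Matrix (Fin n ⊕ Fin n) (Fin n ⊕ Fin n) ℤ) = -1 := by
  have h1 : ((Subgroup.centralizer {g}).subgroupOf Δ).FiniteIndex := by
    have : Finite (Δ ⧸ (Subgroup.centralizer {g}).subgroupOf Δ) := by
      have hF : Finite {y : SpZ n | ∃ d ∈ Δ, y = d * g * d⁻¹} := hfin
      refine Finite.of_injective (β := {y : SpZ n | ∃ d ∈ Δ, y = d * g * d⁻¹})
        (Quotient.lift (fun d : Δ => (⟨d * g * (d : SpZ n)⁻¹, d, d.2, rfl⟩ :
          {y : SpZ n | ∃ d ∈ Δ, y = d * g * d⁻¹})) ?_) ?_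
      · intro a b hab
        have h2 : a⁻¹ * b ∈ (Subgroup.centralizer {g}).subgroupOf Δ :=
          QuotientGroup.leftRel_apply.mp hab
        have h3 : g * ((a : SpZ n)⁻¹ * b) = ((a : SpZ n)⁻¹ * b) * g :=
          Subgroup.mem_centralizer_iff.mp (Subgroup.mem_subgroupOf.mp h2) g rfl
        apply Subtype.ext
        change (a : SpZ n) * g * (a : SpZ n)⁻¹ = b * g * (b : SpZ n)⁻¹
        rw [mul_inv_eq_iff_eq_mul]
        have : (b : SpZ n) * g = a * (((a : SpZ n)⁻¹ * b) * g) := by group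
        rw [this, ← h3]
        group
      · intro x y
        refine Quotient.inductionOn₂ x y fun a b hab => ?_
        have h2 : (a : SpZ n) * g * (a : SpZ n)⁻¹ = b * g * (b : SpZ n)⁻¹ :=
          congrArg Subtype.val hab
        apply Quotient.sound
        apply QuotientGroup.leftRel_apply.mpr
        rw [Subgroup.mem_subgroupOf, Subgroup.mem_centralizer_iff]
        intro x hx
        rw [Set.mem_singleton_iff.mp hx]
        change g * ((a : SpZ n)⁻¹ * b) = ((a : SpZ n)⁻¹ * b) * g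
        have h3 : (a : SpZ n) * g * (a : SpZ n)⁻¹ * b = b * g := by
          rw [h2]; group
        have h4 : g * ((a : SpZ n)⁻¹ * b) = (a : SpZ n)⁻¹ * (a * g * (a : SpZ n)⁻¹ * b) := by
          group
        rw [h4, h3]
        group
    exact Subgroup.finiteIndex_of_finite_quotient
  have hZ' : (((Subgroup.centralizer {g}).subgroupOf Δ).map Δ.subtype).FiniteIndex := by
    constructor
    rw [Subgroup.index_map_subtype]
    exact mul_ne_zero h1.index_ne_zero Subgroup.FiniteIndex.index_ne_zero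
  obtain ⟨N, hN⟩ : ∃ N, N = (((Subgroup.centralizer {g}).subgroupOf Δ).map
    Δ.subtype).normalCore := ⟨_, rfl⟩
  have hNf : N.FiniteIndex := by rw [hN]; infer_instance
  have hq : (N.index : ℤ) ≠ 0 := by exact_mod_cast hNf.index_ne_zero
  have hNor : N.Normal := by rw [hN]; infer_instance
  have hcomm : ∀ u : SpZ n, g * u ^ N.index = u ^ N.index * g := by
    intro u
    have h1 : u ^ N.index ∈ N := Subgroup.pow_index_mem _ _
    rw [hN] at h1
    have h2 := Subgroup.normalCore_le _ h1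
    rw [← hN] at h2
    obtain ⟨c, hc, hc'⟩ := h2
    rw [← hc']
    exact Subgroup.mem_centralizer_iff.mp (Subgroup.mem_subgroupOf.mp hc) g rfl
  exact eq_or_neg_of_comm hq g (fun S hS => by
      rw [← upp_pow S hS]
      exact congrArg Subtype.val (hcomm (upp S hS))) (fun S hS => by
      rw [← low_pow S hS]
      exact congrArg Subtype.val (hcomm (low S hS)))

theorem mem_center_of (g : SpZ n) (h : (g : Matrix (Fin n ⊕ Fin n) (Fin n ⊕ Fin n) ℤ) = 1 ∨
      (g : Matrix (Fin n ⊕ Fin n) (Fin n ⊕ Fin n) ℤ) = -1) : g ∈ Subgroup.center (SpZ n) := by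
  rw [Subgroup.mem_center_iff]
  intro a
  apply Subtype.ext
  change (a : Matrix (Fin n ⊕ Fin n) (Fin n ⊕ Fin n) ℤ) *
    (g : Matrix (Fin n ⊕ Fin n) (Fin n ⊕ Fin n) ℤ) =
    (g : Matrix (Fin n ⊕ Fin n) (Fin n ⊕ Fin n) ℤ) *
    (a : Matrix (Fin n ⊕ Fin n) (Fin n ⊕ Fin n) ℤ)
  rcases h with h | h <;> simp [h]

/-- the centre of `Sp_2n(ℤ)` is `{1, -1}` -/
theorem of_mem_center {g : SpZ n} (h : g ∈ Subgroup.center (SpZ n)) :
    (g : Matrix (Fin n ⊕ Fin n) (Fin n ⊕ Fin n) ℤ) = 1 ∨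
      (g : Matrix (Fin n ⊕ Fin n) (Fin n ⊕ Fin n) ℤ) = -1 := by
  refine eq_or_neg_of_finite ⊤ g ((Set.finite_singleton g).subset ?_)
  rintro y ⟨d, -, rfl⟩
  rw [Set.mem_singleton_iff, mul_inv_eq_iff_eq_mul]
  exact Subgroup.mem_center_iff.mp h d

/-- `PSp_2n(ℤ)` -/
abbrev PSpZ (n : ℕ) : Type := SpZ n ⧸ Subgroup.center (SpZ n)

/-- **The finite-index subgroups of `PSp_2n(ℤ)` have infinite conjugacy classes.** -/
theorem icc_psp (L : Subgroup (PSpZ n)) [L.FiniteIndex] (p : L) (hp : p ≠ 1) :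
    Set.Infinite {y : L | ∃ h, y = h * p * h⁻¹} := by
  intro hfin
  apply hp
  obtain ⟨g, hg⟩ := QuotientGroup.mk'_surjective (Subgroup.center (SpZ n)) (p : PSpZ n)
  obtain ⟨Δ, hΔ⟩ : ∃ Δ, Δ = L.comap (QuotientGroup.mk' (Subgroup.center (SpZ n))) := ⟨_, rfl⟩
  have hfi : Δ.FiniteIndex := by
    rw [hΔ]
    constructor
    rw [Subgroup.index_comap_of_surjective _ (QuotientGroup.mk'_surjective _)]
    exact Subgroup.FiniteIndex.index_ne_zero
  have hc : Set.Finite (Subgroup.center (SpZ n) : Set (SpZ n)) := by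
    refine Set.Finite.of_finite_image (f := fun A : SpZ n =>
      (A : Matrix (Fin n ⊕ Fin n) (Fin n ⊕ Fin n) ℤ)) ?_ (fun A _ B _ e => Subtype.ext e)
    refine (Set.toFinite {(1 : Matrix (Fin n ⊕ Fin n) (Fin n ⊕ Fin n) ℤ), -1}).subset ?_
    rintro _ ⟨A, hA, rfl⟩
    rcases of_mem_center hA with h | h
    · left; exact h
    · right; exact h
  have h2 : {y : SpZ n | ∃ d ∈ Δ, y = d * g * d⁻¹}.Finite := by
    have h3 : (Subtype.val '' {y : L | ∃ h, y = h * p * h⁻¹}).Finite := hfin.image _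
    refine Set.Finite.of_finite_fibers (QuotientGroup.mk' (Subgroup.center (SpZ n)))
      (h3.subset ?_) ?_
    · rintro _ ⟨_, ⟨d, hd, rfl⟩, rfl⟩
      have hd' : QuotientGroup.mk' (Subgroup.center (SpZ n)) d ∈ L := by
        rw [hΔ] at hd; exact hd
      refine ⟨⟨_, hd'⟩ * p * ⟨_, hd'⟩⁻¹, ⟨⟨_, hd'⟩, rfl⟩, ?_⟩
      rw [map_mul, map_mul, map_inv, hg]
      rfl
    · rintro _ ⟨y0, -, rfl⟩
      refine (hc.image fun c => y0 * c).subset ?_
      rintro y ⟨-, hy⟩
      refine ⟨y0⁻¹ * y, ?_, by simp⟩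
      have h4 : QuotientGroup.mk' (Subgroup.center (SpZ n)) y =
        QuotientGroup.mk' (Subgroup.center (SpZ n)) y0 := hy
      exact QuotientGroup.eq.mp h4.symm
  have h5 := mem_center_of g (eq_or_neg_of_finite Δ g h2)
  apply Subtype.ext
  rw [← hg]
  exact (QuotientGroup.eq_one_iff g).mpr h5

/-- real matrices (defined up to sign) of the elements of `PSp_2n(ℤ)` -/
noncomputable def pspZ (p : PSpZ n) : Matrix (Fin (n + n)) (Fin (n + n)) ℝ :=
  spZ (Quotient.out p)

theorem pspZ_mul (p q : PSpZ n) :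
    pspZ (p * q) = pspZ p * pspZ q ∨ pspZ (p * q) = -(pspZ p * pspZ q) := by
  obtain ⟨c, hc⟩ : ∃ c : SpZ n, c = (Quotient.out p * Quotient.out q)⁻¹ * Quotient.out (p * q) :=
    ⟨_, rfl⟩
  have hc' : Quotient.out (p * q) = Quotient.out p * Quotient.out q * c := by
    rw [hc]; group
  have h1 : c ∈ Subgroup.center (SpZ n) := by
    rw [hc]
    apply QuotientGroup.eq.mp
    have e1 : ∀ x : PSpZ n, ((Quotient.out x : SpZ n) : PSpZ n) = x := fun x => Quotient.out_eq' x
    rw [QuotientGroup.mk_mul, e1, e1, e1]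
  unfold pspZ
  rw [hc', spZ_mul, spZ_mul]
  rcases of_mem_center h1 with h | h
  · left
    have : c = 1 := Subtype.ext h
    rw [this, spZ_one, mul_one]
  · right
    have : spZ c = -1 := by
      ext i j
      rw [spZ_int, h]
      by_cases hij : i = j
      · subst hij; simp
      · have : finSumFinEquiv.symm i ≠ finSumFinEquiv.symm j := fun e =>
          hij (finSumFinEquiv.symm.injective e)
        simp [hij, this]
    rw [this, mul_neg, mul_one]

theorem pspZ_det (p : PSpZ n) : (pspZ p).det = 1 := spZ_det _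

theorem pspZ_form (p : PSpZ n) : pspZ p * Jr n * (pspZ p)ᵀ = Jr n := spZ_form _

theorem pspZ_finite (R : ℝ) : {p : PSpZ n | hs (pspZ p) ≤ R}.Finite :=
  Set.Finite.preimage (f := fun p : PSpZ n => (Quotient.out p : SpZ n))
    (fun _ _ _ _ e => Quotient.out_injective e) (spZ_finite R)

end Vale.Agent.P092.H17
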