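import Vale.Agent.P092.H17.SpHChain
import Vale.Agent.P092.H17.SpGaps
import Vale.Agent.P092.H761.SharpInst

/-!
P092 (helper17): the sharp rank theorem for lattices and discrete subgroups of `Sp_2n(ℝ)`.
-/

set_option linter.all false

open Matrix Topology MeasureTheory

namespace Vale.Agent.P092.H17

open Vale.Agent.P092.H160 Vale.Agent.P092.H553 Vale.Agent.P092.H200 Vale.Agent.P092.H432
open Vale.Agent.P092.H538 Vale.Agent.P092.H761 Vale.Agent.P092.H701 Vale.Agent.P092.H655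
open Vale.Agent.P092.H944 (hs gap)

variable {n : ℕ}

/-- A discrete subgroup of `Sp_2n(ℝ)` has finite balls. -/
theorem finite_ball_sp (Γ : Subgroup (SpK n ℝ)) [DiscreteTopology Γ] (R : ℝ) :
    {g : Γ | hs (spR (g : SpK n ℝ)) ≤ R}.Finite := by
  have h1 : IsClosed (Γ : Set (SpK n ℝ)) := Subgroup.isClosed_of_discrete
  have h2 : Topology.IsClosedEmbedding (fun g : Γ => (g : SpK n ℝ)) :=
    h1.isClosedEmbedding_subtypeVal
  have h3 : Topology.IsClosedEmbedding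
      (fun g : SpK n ℝ => (g : Matrix (Fin n ⊕ Fin n) (Fin n ⊕ Fin n) ℝ)) :=
    (spK_isClosed (n := n) (k := ℝ)).isClosedEmbedding_subtypeVal
  let e : Matrix (Fin n ⊕ Fin n) (Fin n ⊕ Fin n) ℝ ≃ₜ Matrix (Fin (n + n)) (Fin (n + n)) ℝ :=
    { toEquiv := Matrix.reindex finSumFinEquiv finSumFinEquiv
      continuous_toFun := by
        apply Continuous.matrix_reindex continuous_id
      continuous_invFun := by
        have h : Continuous (fun A : Matrix (Fin (n + n)) (Fin (n + n)) ℝ =>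
            A.submatrix (finSumFinEquiv (m := n) (n := n)) (finSumFinEquiv (m := n) (n := n))) :=
          Continuous.matrix_submatrix continuous_id _ _
        exact h }
  have h4 := ((e.isClosedEmbedding.comp h3).comp h2).isCompact_preimage (H261.isCompact_hs_le R)
  exact h4.finite_of_discrete

theorem emb_sp (Γ : Subgroup (SpK n ℝ)) [DiscreteTopology Γ] :
    H944.Emb (fun g : Γ => spR (g : SpK n ℝ)) :=
  H944.emb_of_hom ((spHom n).comp Γ.subtype) (finite_ball_sp Γ)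

/-- **The gaps of a discrete subgroup of `Sp_2n(ℝ)` form `n` classes.** -/
theorem gaps_sp (Γ : Subgroup (SpK n ℝ)) [DiscreteTopology Γ] :
    Gaps (fun (j : Fin (n + n - 1)) (g : Γ) => gap (j : ℕ) (spR (g : SpK n ℝ))) (clSp n) :=
  H944.gaps' (emb_sp Γ) ⟨fun j : Fin (n + n - 1) => (j : ℕ), Fin.val_injective⟩ (R0 := 0)
    (fun l hl h1 => absurd rfl (h1 ⟨l, by omega⟩)) (clSp n)
    fun R => ⟨R, fun i j hij g hg => by
      have h1 := gap_eq_of_cl (g := spR (g : SpK n ℝ)) (by rw [spR_det]; exact one_ne_zero)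
        (spR_form _) hij
      show gap (j : ℕ) (spR (g : SpK n ℝ)) ≤ R
      rw [← h1]
      exact hg⟩

/-- **Sharp rank theorem, target a discrete subgroup of `Sp_2n(ℝ)`**, source a lattice in a group
with a chain of length `> n`. -/
theorem not_arep_toSp {E : Type} [Group E] [TopologicalSpace E]
    [IsTopologicalGroup E] [LocallyCompactSpace E]
    [SecondCountableTopology E] [T2Space E] [MeasurableSpace E] [BorelSpace E] (Λ : Subgroup E)
    [DiscreteTopology Λ] [MeasurableSpace (E ⧸ Λ)] [BorelSpace (E ⧸ Λ)] (ν : Measure (E ⧸ Λ))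
    [IsProbabilityMeasure ν] (hν : ∀ g : E, ν.map (fun x => g • x) = ν)
    {r : ℕ} (hn : 1 ≤ n) (Γ : Subgroup (SpK n ℝ)) [DiscreteTopology Γ] (C : HChain E r)
    (hr : n < r) {ι : Type} [Fintype ι]
    {t : ℝ} {R : Λ → (Ell2 (Γ × ι) →L[ℂ] Ell2 (Γ × ι))} (hR : ARep t R) : False := by
  have : Countable Γ := H790.countable_of_discrete Γ
  exact H261.not_arep sharpInst Λ ν hν (gaps_sp Γ)
    (fun _ θ => H944.geo (by omega) (emb_sp Γ) θ) C hr hR

/-- `Λ` is a lattice in the topological group `E`. -/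
structure IsLatE (E : Type) [Group E] [TopologicalSpace E] (Λ : Subgroup E) : Prop where
  disc : DiscreteTopology Λ
  covol : ∃ ν : @Measure (E ⧸ Λ) (borel (E ⧸ Λ)), ν ≠ 0 ∧ ν Set.univ < ⊤ ∧
    ∀ g : E, ∀ s : Set (E ⧸ Λ), MeasurableSet[borel (E ⧸ Λ)] s → ν ((fun x => g • x) ⁻¹' s) = ν s

/-- A probability measure for a lattice. -/
theorem IsLatE.prob {E : Type} [Group E] [TopologicalSpace E] [IsTopologicalGroup E]
    [LocallyCompactSpace E] [SecondCountableTopology E] [T2Space E] [MeasurableSpace E]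
    [BorelSpace E] {Λ : Subgroup E} [DiscreteTopology Λ] (h : IsLatE E Λ) :
    ∃ ν : @Measure (E ⧸ Λ) (borel (E ⧸ Λ)), @IsProbabilityMeasure (E ⧸ Λ) (borel (E ⧸ Λ)) ν ∧
      ∀ g : E, @Measure.map (E ⧸ Λ) (E ⧸ Λ) (borel (E ⧸ Λ)) (borel (E ⧸ Λ))
        (fun x => g • x) ν = ν := by
  let _ : MeasurableSpace (E ⧸ Λ) := borel _
  have _ : BorelSpace (E ⧸ Λ) := ⟨rfl⟩
  obtain ⟨ν, hν0, hνf, hν⟩ := h.covol
  have hν1 : ν Set.univ ≠ 0 := by
    intro h
    exact hν0 (Measure.measure_univ_eq_zero.mp h)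
  have hP : IsProbabilityMeasure ((ν Set.univ)⁻¹ • ν) := by
    constructor
    rw [Measure.smul_apply, smul_eq_mul]
    exact ENNReal.inv_mul_cancel hν1 hνf.ne
  refine ⟨(ν Set.univ)⁻¹ • ν, hP, fun g => ?_⟩
  have hg : Measurable (fun x : E ⧸ Λ => g • x) := H85.smul_meas Λ g
  ext s hs
  rw [Measure.map_apply hg hs, Measure.smul_apply, Measure.smul_apply, hν g s hs]

/-- **Sharp rank theorem**, source a lattice in a group `E` with a chain of length `r`, target a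
discrete subgroup of `Sp_2n(ℝ)`, `n < r`. -/
theorem sharp_toSp {E : Type} [Group E] [TopologicalSpace E]
    [IsTopologicalGroup E] [LocallyCompactSpace E]
    [SecondCountableTopology E] [T2Space E] [MeasurableSpace E] [BorelSpace E] {Λ : Subgroup E}
    (hΛ : IsLatE E Λ) {r : ℕ} (hn : 1 ≤ n) (Γ : Subgroup (SpK n ℝ)) [DiscreteTopology Γ]
    (C : HChain E r) (hr : n < r) {ι : Type} [Fintype ι]
    {t : ℝ} {R : Λ → (Ell2 (Γ × ι) →L[ℂ] Ell2 (Γ × ι))} : ¬ ARep t R := by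
  intro hR
  have := hΛ.disc
  let _ : MeasurableSpace (E ⧸ Λ) := borel _
  have _ : BorelSpace (E ⧸ Λ) := ⟨rfl⟩
  obtain ⟨ν, h1, h2⟩ := hΛ.prob
  exact not_arep_toSp Λ ν h2 hn Γ C hr hR

/-- **Sharp rank theorem**, source a lattice in a group `E` with a chain of length `r`, target a
discrete subgroup of `SL_m(ℝ)`, `m ≤ r`. -/
theorem sharp_toSL {E : Type} [Group E] [TopologicalSpace E]
    [IsTopologicalGroup E] [LocallyCompactSpace E]
    [SecondCountableTopology E] [T2Space E] [MeasurableSpace E] [BorelSpace E] {Λ : Subgroup E}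
    (hΛ : IsLatE E Λ) {m r : ℕ} (hm : 1 ≤ m) (Γ : Subgroup (SLR m)) [DiscreteTopology Γ]
    (C : HChain E r) (hr : m ≤ r) {ι : Type} [Fintype ι]
    {t : ℝ} {R : Λ → (Ell2 (Γ × ι) →L[ℂ] Ell2 (Γ × ι))} : ¬ ARep t R := by
  intro hR
  have := hΛ.disc
  let _ : MeasurableSpace (E ⧸ Λ) := borel _
  have _ : BorelSpace (E ⧸ Λ) := ⟨rfl⟩
  obtain ⟨ν, h1, h2⟩ := hΛ.prob
  exact H261.not_arep_sl sharpInst Λ ν h2 hm Γ C hr hR

/-- Source a lattice of `Sp_2n(ℝ)`, target a discrete subgroup of `Sp_2m(ℝ)`, `m < n`. -/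
theorem sharp_SpSp {m n : ℕ} (hm : 1 ≤ m) (h : m < n) (Γ : Subgroup (SpK m ℝ))
    [DiscreteTopology Γ] {Λ : Subgroup (SpK n ℝ)} (hΛ : IsLatE (SpK n ℝ) Λ) {ι : Type} [Fintype ι]
    {t : ℝ} {R : Λ → (Ell2 (Γ × ι) →L[ℂ] Ell2 (Γ × ι))} : ¬ ARep t R := by
  let _ : MeasurableSpace (SpK n ℝ) := borel _
  have _ : BorelSpace (SpK n ℝ) := ⟨rfl⟩
  obtain ⟨C⟩ := exists_spChain n ℝ
  exact sharp_toSp hΛ hm Γ C h

/-- Source a lattice of `Sp_2n(ℝ)`, target a discrete subgroup of `SL_m(ℝ)`, `m - 1 < n`. -/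
theorem sharp_SpSL {m n : ℕ} (hm : 1 ≤ m) (h : m ≤ n) (Γ : Subgroup (SLR m))
    [DiscreteTopology Γ] {Λ : Subgroup (SpK n ℝ)} (hΛ : IsLatE (SpK n ℝ) Λ) {ι : Type} [Fintype ι]
    {t : ℝ} {R : Λ → (Ell2 (Γ × ι) →L[ℂ] Ell2 (Γ × ι))} : ¬ ARep t R := by
  let _ : MeasurableSpace (SpK n ℝ) := borel _
  have _ : BorelSpace (SpK n ℝ) := ⟨rfl⟩
  obtain ⟨C⟩ := exists_spChain n ℝ
  exact sharp_toSL hΛ hm Γ C h

/-- Source a lattice of `SL_n(ℝ)`, target a discrete subgroup of `Sp_2m(ℝ)`, `m < n - 1`. -/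
theorem sharp_SLSp {m n : ℕ} (hm : 1 ≤ m) (h : m + 1 < n) (Γ : Subgroup (SpK m ℝ))
    [DiscreteTopology Γ] {Λ : Subgroup (SLR n)} (hΛ : IsLatE (SLR n) Λ) {ι : Type} [Fintype ι]
    {t : ℝ} {R : Λ → (Ell2 (Γ × ι) →L[ℂ] Ell2 (Γ × ι))} : ¬ ARep t R := by
  obtain ⟨n, rfl⟩ : ∃ k, n = k + 1 := ⟨n - 1, by omega⟩
  let _ : MeasurableSpace (SLR (n + 1)) := borel _
  have _ : BorelSpace (SLR (n + 1)) := ⟨rfl⟩
  exact sharp_toSp hΛ hm Γ (slChain ℝ n) (by omega)

end Vale.Agent.P092.H17
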